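import Vale.Agent.P167.H756.Q2
import Vale.Agent.P167.H825.Defs2A
import Vale.Agent.P167.XDL.Enl
import Vale.Agent.P167.H718.Dob
import Vale.Agent.P167.BR.Intf
import Vale.Agent.P167.FK.Sym
import Vale.Agent.P167.H192.Dict
import Vale.Agent.P167.H375.EndH

/-!
# P167, `0 < q < 4`: the interfaces GEOT and RATT for the one-arm observable

`√q = 2 cos μ`, `0 < μ < π / 2`. A shape `P : Sh4` is a unit lattice polygon (counterclockwise) with the
marks `b` = midpoint of the side `0` (the target), `a` = midpoint of the side `k` (the tip), `c = q j`,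
`d = q l = 0` (`c` is only there for the normalisation). The arc `a → c → d → b` is free, the arc
`b → a` is wired. `PT` is the probability that the boundary site `d` is joined to the wired arc.

* `GeoT` : comparison of the exploration (in the lattice domains of a class `K`) with two shapes;
* `RatT` : the ratios of the probabilities `PT` of two shapes (identification).

`curveLimitOn_T` : the curve theorem for the class `K`. The predicate `ok` selects the shapes.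
-/

set_option autoImplicit false
set_option linter.unusedVariables false

namespace Vale.Agent.P167.H375

open MeasureTheory Filter Topology Set
open Vale.Agent.P167.BR (sites hbox Jn)
open Vale.Agent.P167.H825 (enl)
open Vale.Agent.P167.H718 (etaW)
open Vale.Agent.P167.H192 (cfg)
open Vale.Agent.P167.H756 (QPos)
open Vale.Agent.P167.E6 (pt dir IsPolygon Encloses region Medial)
open Vale.Agent.P167.H411 (Set6 exn)
open Vale.Agent.P145.FB (PStep)

/-! ### Shapes (as in `QT.Defs`) -/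

/-- A unit lattice polygon with the marks `b` (side `0`), `a` (side `k`), `c = q j`, `d = q l`. -/
structure Sh where
  m : ℕ
  q : ZMod m → ℤ × ℤ
  S : Finset (ℤ × ℤ)
  k : ℕ
  j : ℕ
  l : ℕ

/-- The conformal quantities `u = x_c / x_d`, `v = D / (x_d - x_c)` of a shape. -/
def Sh.Pos (P : Sh) (u v : ℝ) : Prop :=
  QPos (interior (region 1 P.S)) (pt (P.q P.k) + (1 / 2 : ℝ) * pt (P.q (P.k + 1) - P.q P.k))
    (pt (P.q 0) + 1 / 2) (pt (P.q P.j)) 0 u v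

/-- The squares. -/
noncomputable def domT (N : ℕ) (v₀ : ℤ × ℤ) (P : Sh) : Finset (ℤ × ℤ) :=
  (enl P.S N).image (· + v₀)

/-- The polygon with `a` at the index `0`. -/
def rotT (P : Sh) (x : ZMod P.m) : ℤ × ℤ := P.q (x + P.k)

/-- A configuration outside: free from `a` to `b`, wired from `b` to `a`. -/
noncomputable def extT (N : ℕ) (v₀ : ℤ × ℤ) (P : Sh) : Cfg := fun v =>
  etaW (enl P.S N) (Enl.qN (rotT P) N (N / 2)) ((P.m - P.k) * N) (v - v₀)

/-- The sites of the wired arc from `b` to `a`. -/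
def arcw (N : ℕ) (v₀ : ℤ × ℤ) (P : Sh) : Set (ℤ × ℤ) :=
  {z | ∃ i : ℕ, N / 2 ≤ i ∧ i ≤ P.k * N + N / 2 ∧ Enl.PN P.q N i + v₀ = z}

open Classical in
/-- The indicator of the event that `v₀` is joined to `W` by a primal path of `D`. -/
noncomputable def ft (D : Finset (ℤ × ℤ)) (v₀ : ℤ × ℤ) (W : Set (ℤ × ℤ)) (ω : Cfg) : ℝ :=
  if Jn true D ω {v₀} W then 1 else 0

/-- Its probability in the enlarged shape. -/
noncomputable def PT (μ : ℝ) (N : ℕ) (v₀ : ℤ × ℤ) (P : Sh) : ℝ :=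
  FK.Ex (2 * Real.cos μ) (domT N v₀ P) (extT N v₀ P) (ft (domT N v₀ P) v₀ (arcw N v₀ P))

/-- The configuration of the squares. -/
noncomputable def cf {n : ℕ} (p : ZMod n → ℤ × ℤ) (k : ℕ) (A : Finset (Sym2 (ℤ × ℤ))) : Cfg :=
  cfg (Final.wiredOpen p k A)

/-- The exponent of the one-arm observable. -/
noncomputable def hT (μ : ℝ) : ℝ := 1 - 2 * μ / Real.pi

/-! ### The geometric input -/

/-- The comparison for one lattice domain, with the constants `M`, `ε`, `ε'`; `N` squares are one unit.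
(i) A bound for all histories; (ii) except on histories of small weight the conditional probabilities
are between those of two shapes, whose conformal quantities (relative to the shape `P₀`) are close to the
observable. -/
def GeoTAt {n : ℕ} (μ : ℝ) (X : Vale.Agent.P153.M1.Expl (Finset (Sym2 (ℤ × ℤ))) Medial)
    (w : Finset (Sym2 (ℤ × ℤ)) → ℝ) (p : ZMod n → ℤ × ℤ) (k : ℕ) (T R b M ε ε' : ℝ)
    (Shs : Set Sh) (P₀ : Sh) (N : ℕ) : Prop :=
  ∃ (v₀ : ℤ × ℤ) (Dc : Finset (ℤ × ℤ)) (W : Set (ℤ × ℤ)), Even (v₀.1 + v₀.2) ∧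
    ∀ κ : Finset (Sym2 (ℤ × ℤ)) → ℕ, QE.BefIx X T R κ →
      (∀ A ∈ X.C,
        QE.cexW X w (fun A' => ft Dc v₀ W (cf p k A')) A (κ A) ≤ M * PT μ N v₀ P₀) ∧
      QE.ExW X.C w ({A | ¬ ∃ P ∈ Shs, ∃ P' ∈ Shs,
        ((1 - ε') * PT μ N v₀ P ≤ QE.cexW X w (fun A' => ft Dc v₀ W (cf p k A')) A (κ A) ∧
          QE.cexW X w (fun A' => ft Dc v₀ W (cf p k A')) A (κ A) ≤ (1 + ε') * PT μ N v₀ P') ∧
        ∀ Q : Sh, (Q = P ∨ Q = P') → ∀ u v u₀ w₀ : ℝ, Q.Pos u v → P₀.Pos u₀ w₀ →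
          |((v * (1 - u)) / (w₀ * (1 - u₀))) ^ hT μ - obsH (hT μ) (X.W A) b (X.c A (κ A))| ≤
            ε}.indicator 1) ≤ ε'

/-- **[GEOT]** The output of SAND-GEO + CONT + CM for the class `K`. The bound `M` does not depend on
`ε'`; the reference shape `P₀ n` may depend on `n`. -/
def GeoT (μ : ℝ) (ok : Sh → Prop) (K : QE.Cls) : Prop := ∀ (Φ : (ℝ × ℝ) ≃ₜ (ℝ × ℝ)) (ψ : ℂ → ℂ)
  (δ : ℕ → ℝ) (N k : ℕ → ℕ) (p : ∀ n, ZMod (N n) → ℤ × ℤ) (S : ℕ → Finset (ℤ × ℤ))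
  (ψn : ℕ → ℂ → ℂ), Set6 Φ ψ δ N k p S ψn → K Φ δ N k p S → ∀ T R : ℝ, 0 ≤ T → 0 < R →
    ∃ b₁ : ℝ, ∀ b : ℝ, b₁ ≤ b → ∀ ε : ℝ, 0 < ε → ∃ M : ℝ, 0 < M ∧ ∀ ε' : ℝ, 0 < ε' →
      ∃ (Shs : Set Sh) (P₀ : ℕ → Sh) (N' : ℕ → ℕ), Shs.Finite ∧ (∀ n, P₀ n ∈ Shs) ∧
        (∀ P ∈ Shs, ok P ∧ ∃ u v, P.Pos u v) ∧ Tendsto N' atTop atTop ∧
        (∀ n, 4 ∣ N' n) ∧ ∀ᶠ n in atTop,
          GeoTAt μ (exn δ N k p S ψn n) (QE.wq ((2 * Real.cos μ) ^ 2) (N n) (p n) (k n) (S n)) (p n)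
            (k n) T R b M ε ε' Shs (P₀ n) (N' n)

/-- The enlargements by multiples of `4`. -/
def FF4 : Filter ℕ := atTop ⊓ 𝓟 {n | 4 ∣ n}

/-- **[RATT]** The ratios of the probabilities of two shapes. -/
def RatT (μ : ℝ) (ok : Sh → Prop) : Prop :=
  ∀ P P₀ : Sh, ok P → ok P₀ → ∀ u v u₀ w₀ : ℝ, P.Pos u v → P₀.Pos u₀ w₀ →
    (∀ᶠ N in FF4, 0 < PT μ N (0, 0) P₀) ∧
    Tendsto (fun N => PT μ N (0, 0) P / PT μ N (0, 0) P₀) FF4
      (𝓝 (((v * (1 - u)) / (w₀ * (1 - u₀))) ^ hT μ))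

/-! ### Translation by an even vector -/

/-- The translated set. -/
def shS (p : ℤ × ℤ) (Z : Finset (ℤ × ℤ)) : Finset (ℤ × ℤ) := Z.image (· + p)

/-- The translated configuration. -/
def shC (p : ℤ × ℤ) (ω : Cfg) : Cfg := fun v => ω (v - p)

theorem mem_shS {p v : ℤ × ℤ} {Z : Finset (ℤ × ℤ)} : v ∈ shS p Z ↔ v - p ∈ Z := by
  unfold shS
  rw [Finset.mem_image]
  constructor
  · rintro ⟨w, hw, rfl⟩
    rwa [add_sub_cancel_right]
  · exact fun h => ⟨_, h, sub_add_cancel _ _⟩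

theorem pstep_sh {p u v : ℤ × ℤ} {F F' : Set (ℤ × ℤ)} (h : ∀ w, w + p ∈ F' ↔ w ∈ F) :
    PStep F' (u + p) (v + p) ↔ PStep F u v := by
  unfold PStep
  have e : (min (u + p).1 (v + p).1, min (u + p).2 (v + p).2) = (min u.1 v.1, min u.2 v.2) + p := by
    apply Prod.ext <;> simp only [Prod.fst_add, Prod.snd_add] <;> omega
  rw [e, h]
  simp only [Prod.fst_add, Prod.snd_add]
  constructor <;> rintro ⟨h1, h2, h3⟩ <;> exact ⟨by omega, by omega, h3⟩

theorem rtg_sh {p u v : ℤ × ℤ} {F F' : Set (ℤ × ℤ)} (h : ∀ w, w + p ∈ F' ↔ w ∈ F) :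
    Relation.ReflTransGen (PStep F') (u + p) (v + p) ↔ Relation.ReflTransGen (PStep F) u v := by
  constructor
  · intro h1
    have h2 : ∀ z, Relation.ReflTransGen (PStep F') (u + p) z →
        Relation.ReflTransGen (PStep F) u (z - p) := by
      intro z hz
      induction hz with
      | refl => rw [add_sub_cancel_right]
      | @tail a b _ hab ih =>
        refine ih.tail ((pstep_sh (p := p) h).1 ?_)
        rwa [sub_add_cancel, sub_add_cancel]
    have h3 := h2 _ h1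
    rwa [add_sub_cancel_right] at h3
  · intro h1
    induction h1 with
    | refl => exact Relation.ReflTransGen.refl
    | tail _ hab ih => exact ih.tail ((pstep_sh h).2 hab)

theorem jn_sh {p : ℤ × ℤ} (hp : Even (p.1 + p.2)) (c : Bool) (D : Finset (ℤ × ℤ)) (ω : Cfg)
    (U T U' T' : Set (ℤ × ℤ)) (hU : ∀ w, w + p ∈ U' ↔ w ∈ U) (hT : ∀ w, w + p ∈ T' ↔ w ∈ T) :
    Jn c (shS p D) (shC p ω) U' T' ↔ Jn c D ω U T := by
  have hF : ∀ w, w + p ∈ (H632.cs c (shC p ω) ∩ (↑(shS p D) : Set (ℤ × ℤ))) ↔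
      w ∈ (H632.cs c ω ∩ (↑D : Set (ℤ × ℤ))) := by
    intro w
    simp only [Set.mem_inter_iff, Finset.mem_coe, mem_shS, add_sub_cancel_right, H632.cs, shC,
      Set.mem_ofPred_eq]
  have hpar : ∀ w : ℤ × ℤ, ((w + p).1 + (w + p).2) % 2 = (w.1 + w.2) % 2 := by
    intro w
    rw [Int.even_iff] at hp
    simp only [Prod.fst_add, Prod.snd_add]
    omega
  constructor
  · rintro ⟨u, hu, t, ht, h1, h2⟩
    refine ⟨u - p, (hU _).1 (by rwa [sub_add_cancel]), t - p, (hT _).1 (by rwa [sub_add_cancel]),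
      ?_, ?_⟩
    · rw [← hpar, sub_add_cancel]; exact h1
    · rw [← rtg_sh hF, sub_add_cancel, sub_add_cancel]; exact h2
  · rintro ⟨u, hu, t, ht, h1, h2⟩
    refine ⟨u + p, (hU _).2 hu, t + p, (hT _).2 ht, ?_, (rtg_sh hF).2 h2⟩
    rw [hpar]; exact h1

theorem ft_nonneg (D : Finset (ℤ × ℤ)) (v₀ : ℤ × ℤ) (W : Set (ℤ × ℤ)) (ω : Cfg) :
    0 ≤ ft D v₀ W ω := by
  unfold ft
  split_ifs <;> norm_num

theorem ft_sh {p : ℤ × ℤ} (hp : Even (p.1 + p.2)) (D : Finset (ℤ × ℤ)) (v₀ : ℤ × ℤ) (ω : Cfg)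
    (W W' : Set (ℤ × ℤ)) (hW : ∀ w, w + p ∈ W' ↔ w ∈ W) :
    ft (shS p D) (v₀ + p) W' (shC p ω) = ft D v₀ W ω := by
  unfold ft
  have h2 := jn_sh hp true D ω {v₀} W {v₀ + p} W'
    (fun w => by simp only [Set.mem_singleton_iff, add_left_inj]) hW
  by_cases h3 : Jn true D ω {v₀} W
  · rw [if_pos h3, if_pos (h2.2 h3)]
  · rw [if_neg h3, if_neg fun hc => h3 (h2.1 hc)]

theorem Ex_sh {p : ℤ × ℤ} (hp : Even (p.1 + p.2)) {Q : ℝ} (hQ : 0 < Q) (D : Finset (ℤ × ℤ))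
    {η : Cfg} (hη : FK.Good η) (F : Cfg → ℝ) :
    FK.Ex Q (shS p D) (shC p η) F = FK.Ex Q D η fun ω => F (shC p ω) := by
  have hp' : Even ((-p).1 + (-p).2) := by
    rw [Int.even_iff] at hp ⊢
    simp only [Prod.fst_neg, Prod.snd_neg]
    omega
  have h := (FK.sym_of (τ := fun v => (v.1 + (-p).1, v.2 + (-p).2)) (FK.trV (-p)) (fun _ => rfl)
    (FK.trE (-p)) (fun ω => (FK.syP_tr (-p) hp' ω).sy)).2 Q (shS p D) η F hQ hη
  have e1 : ∀ ω : Cfg, (ω ∘ fun v : ℤ × ℤ => (v.1 + (-p).1, v.2 + (-p).2)) = shC p ω := by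
    intro ω
    funext v
    show ω _ = ω _
    congr 1
  have e2 : (shS p D).image (fun v => (v.1 + (-p).1, v.2 + (-p).2)) = D := by
    ext v
    rw [Finset.mem_image]
    constructor
    · rintro ⟨w, hw, rfl⟩
      have := mem_shS.1 hw
      convert this using 1
      apply Prod.ext <;> simp only [Prod.fst_neg, Prod.snd_neg, Prod.fst_sub, Prod.snd_sub] <;> ring
    · intro hv
      refine ⟨v + p, mem_shS.2 (by rwa [add_sub_cancel_right]), ?_⟩
      apply Prod.ext <;> simp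
  rw [e1, e2] at h
  rw [h]
  congr 1

theorem cos_posT {μ : ℝ} (h0 : 0 < μ) (h1 : μ < Real.pi / 2) : (0 : ℝ) < 2 * Real.cos μ := by
  have := Real.cos_pos_of_mem_Ioo ⟨by linarith [Real.pi_pos], h1⟩
  linarith

/-- **The probabilities `PT` do not depend on the (even) site of `d`.** -/
theorem pT_sh {μ : ℝ} (h0 : 0 < μ) (h1 : μ < Real.pi / 2) {p : ℤ × ℤ} (hp : Even (p.1 + p.2))
    (N : ℕ) (P : Sh) : PT μ N p P = PT μ N (0, 0) P := by
  have hQ : (0 : ℝ) < 2 * Real.cos μ := cos_posT h0 h1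
  have e0 : domT N (0, 0) P = enl P.S N := by
    unfold domT
    ext v
    simp only [Finset.mem_image]
    constructor
    · rintro ⟨w, hw, rfl⟩
      have : w + ((0, 0) : ℤ × ℤ) = w := by apply Prod.ext <;> simp
      rwa [this]
    · exact fun hv => ⟨v, hv, by apply Prod.ext <;> simp⟩
  have e1 : domT N p P = shS p (domT N (0, 0) P) := by
    rw [e0]; rfl
  have e2 : extT N p P = shC p (extT N (0, 0) P) := by
    funext v
    show etaW _ _ _ (v - p) = etaW _ _ _ (v - p - (0, 0))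
    congr 1
    apply Prod.ext <;> simp
  have e3 : extT N (0, 0) P = etaW (enl P.S N) (Enl.qN (rotT P) N (N / 2)) ((P.m - P.k) * N) := by
    funext v
    show etaW _ _ _ (v - (0, 0)) = _
    congr 1
    apply Prod.ext <;> simp
  unfold PT
  rw [e1, e2, Ex_sh hp hQ _ (by rw [e3]; exact H718.good_etaW)]
  congr 1
  funext ω
  have e4 : p = (0, 0) + p := by apply Prod.ext <;> simp
  have h := ft_sh hp (domT N (0, 0) P) (0, 0) ω (arcw N (0, 0) P) (arcw N p P) fun w => by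
    constructor
    · rintro ⟨i, h1, h2, h3⟩
      refine ⟨i, h1, h2, ?_⟩
      have := add_right_cancel h3
      rw [this]
      apply Prod.ext <;> simp
    · rintro ⟨i, h1, h2, h3⟩
      refine ⟨i, h1, h2, ?_⟩
      rw [← h3]
      congr 1
      apply Prod.ext <;> simp
  rw [← e4] at h
  exact h

theorem pT_nonneg {μ : ℝ} (h0 : 0 < μ) (h1 : μ < Real.pi / 2) (N : ℕ) (v₀ : ℤ × ℤ) (P : Sh) :
    0 ≤ PT μ N v₀ P := by
  have hQ := cos_posT h0 h1
  unfold PT FK.Ex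
  refine div_nonneg (Finset.sum_nonneg fun S _ => ?_) (Finset.sum_nonneg fun S _ => ?_)
  · refine mul_nonneg (pow_nonneg hQ.le _) ?_
    unfold ft
    split_ifs <;> norm_num
  · exact pow_nonneg hQ.le _

/-- The conformal quantity of the one-arm observable. -/
def cqT (ok : Sh → Prop) (P : Sh) (c : ℝ) : Prop := ok P ∧ ∃ u v, P.Pos u v ∧ c = v * (1 - u)

theorem Sh.Pos.cpos {P : Sh} {u v : ℝ} (h : P.Pos u v) : 0 < v * (1 - u) := by
  obtain ⟨φ, xc, xd, D, -, h1, h2, h3, -, -, -, rfl, rfl⟩ := h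
  have h4 : 0 < xd - xc := by linarith
  have h5 : 0 < xd := by linarith
  have e : D / (xd - xc) * (1 - xc / xd) = D / xd := by
    field_simp
  rw [e]
  positivity

theorem geoH_of_geoT {μ : ℝ} (h0 : 0 < μ) (h1 : μ < Real.pi / 2) {ok : Sh → Prop} {K : QE.Cls}
    (hG : GeoT μ ok K) :
    GeoH ((2 * Real.cos μ) ^ 2) (hT μ) FF4 (fun N P => PT μ N (0, 0) P) (cqT ok) K := by
  intro Φ ψ δ N k p S ψn hS hK T R hT0 hR
  obtain ⟨b₁, hb₁⟩ := hG Φ ψ δ N k p S ψn hS hK T R hT0 hR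
  refine ⟨b₁, fun b hb ε hε => ?_⟩
  obtain ⟨M, hM, hM'⟩ := hb₁ b hb ε hε
  refine ⟨M, hM, fun ε' hε' => ?_⟩
  obtain ⟨Shs, P₀, N', hf, hP₀, hok, hN', h4, hGeo⟩ := hM' ε' hε'
  refine ⟨Shs, P₀, N', hf, hP₀, fun P hP => ?_, ?_, ?_⟩
  · obtain ⟨g1, u, v, g2⟩ := hok P hP
    exact ⟨v * (1 - u), g2.cpos, g1, u, v, g2, rfl⟩
  · exact Filter.tendsto_inf.2 ⟨hN', Filter.tendsto_principal.2 (Eventually.of_forall h4)⟩
  · filter_upwards [hGeo] with n hn
    obtain ⟨v₀, Dc, W, hv, hn⟩ := hn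
    refine ⟨fun A' => ft Dc v₀ W (cf (p n) (k n) A'), fun A => ft_nonneg _ _ _ _, fun κ hκ => ?_⟩
    · obtain ⟨g1, g2⟩ := hn κ hκ
      simp only [pT_sh h0 h1 hv] at g1 g2
      refine ⟨g1, le_trans (QE.exW_mono (Finset.finite_toSet _)
        (fun A _ => QE.wq_pos (by have := cos_posT h0 h1; positivity) _ _ _ _ A)
        fun A hA => ?_) g2⟩
      refine Set.indicator_le_indicator_of_subset (fun A' hA' => ?_) (fun _ => zero_le_one) A
      simp only [Set.mem_ofPred_eq] at hA' ⊢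
      rintro ⟨P, hP, P', hP', hs, hc⟩
      refine hA' ⟨P, hP, P', hP', hs, ?_⟩
      rintro Q hQ c c₀ ⟨-, u, v, k1, rfl⟩ ⟨-, u₀, w₀, k2, rfl⟩
      exact hc Q hQ u v u₀ w₀ k1 k2

theorem ratH_of_ratT {μ : ℝ} {ok : Sh → Prop} (hR : RatT μ ok) :
    RatH (hT μ) FF4 (fun N P => PT μ N (0, 0) P) (cqT ok) := by
  rintro P P₀ c c₀ - - ⟨h1, u, v, h2, rfl⟩ ⟨h3, u₀, w₀, h4, rfl⟩
  exact hR P P₀ h1 h3 u v u₀ w₀ h2 h4

theorem two_cos_muq {q : ℝ} (h0 : 0 < q) (h4 : q < 4) : (2 * Real.cos (QE.muq q)) ^ 2 = q := by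
  rw [QE.cos_muq h4.le]
  exact Real.sq_sqrt h0.le

/-- **The curve theorem for the class `K` and `0 < q < 4`** from the interfaces GEOT and RATT. -/
theorem curveLimitOn_T {K : QE.Cls} {q : ℝ} (h0 : 0 < q) (h4 : q < 4) (hne : K.Ne)
    {ok : Sh → Prop} (hG : GeoT (QE.muq q) ok K) (hR : RatT (QE.muq q) ok)
    (hcross : QE.I_crossW (QE.wq q)) (hfin : QE.I_finW (QE.wq q)) (hnf : QE.I_nfW (QE.wq q)) :
    QE.CurveLimitOn K (Final.kappa q) (QE.wq q) := by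
  have m0 := QE.muq_pos h4
  have m1 := QE.muq_lt h0
  have hG' := geoH_of_geoT m0 m1 hG
  rw [two_cos_muq h0 h4] at hG'
  exact curveLimitOn_H h0 h4 hne (fun N P => pT_nonneg m0 m1 N _ P) hG' (ratH_of_ratT hR) hcross
    hfin hnf

end Vale.Agent.P167.H375
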