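import Vale.Agent.P167.QE.MainL
import Vale.Agent.P167.H411.Expand

/-!
# P167, `0 < q < 4`: the boundary observable with the derivative

`obsH h W b t = (b g_t'(b) / (g_t(b) - W_t))^h`. For `0 < h` it is the martingale of SLE with
`κ = 8 / (h + 1)`; for the random-cluster model it belongs to the probability that the boundary point
`b` is connected to the wired arc, `h = 1 - 2 μ / π = 8 / κ - 1`, `√q = 2 cos μ`.
-/

set_option autoImplicit false
set_option linter.unusedVariables false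

open MeasureTheory ProbabilityTheory Filter Topology Set
open scoped NNReal ENNReal

namespace Vale.Agent.P167.H375

open Vale.Agent.P167.H411 Vale.Agent.P153.BESS
open Vale.Agent.P167.QE (muq muq_pos muq_lt kappa_eq I_closeL I_closeP I_crossW I_finW I_nfW wq wq_pos
  kappa_pos' curveLimitL_of curveLimitP_of question_of_curve)

/-- The boundary observable `(b g_t'(b) / (g_t(b) - W_t))^h` of the chain driven by `W`. -/
noncomputable def obsH (h : ℝ) (W : ℝ → ℝ) (b t : ℝ) : ℝ := obsF W b t ^ (3 * h)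

theorem obsH_pos (h : ℝ) (W : ℝ → ℝ) (b t : ℝ) : 0 < obsH h W b t :=
  Real.rpow_pos_of_pos (obsF_pos W b t) _

/-- The observable as a power. -/
theorem obsH_eq {h : ℝ} {W y : ℝ → ℝ} {b t : ℝ} (ht : 0 ≤ t) (hW : ContinuousOn W (Icc 0 t))
    (hy : RSol W b t y) (hp : 0 < (y t - W t) / b) :
    obsH h W b t = (b * Real.exp (ldv W y t) / (y t - W t)) ^ h := by
  have hb : b ≠ 0 := by rintro rfl; simp at hp
  have h0 : 0 ≤ b * Real.exp (ldv W y t) / (y t - W t) := by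
    have e : b * Real.exp (ldv W y t) / (y t - W t) =
        Real.exp (ldv W y t) * ((y t - W t) / b)⁻¹ := by
      field_simp
    rw [e]
    positivity
  rw [obsH, obsF_eq ht hW hy, obsY_eq_rpow hp, ← Real.rpow_mul h0]
  congr 1
  ring

theorem rpow_expand {a u : ℝ} (ha : 0 ≤ a) (ha3 : a ≤ 3) (hu : |u| ≤ 1 / 8) :
    |(1 + u) ^ a - (1 + a * u + a * (a - 1) / 2 * u ^ 2)| ≤ 300 * |u| ^ 3 := by
  have hu0 : 0 ≤ |u| := abs_nonneg u
  obtain ⟨hu1, hu2⟩ := abs_le.1 hu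
  have hpos : 0 < 1 + u := by linarith
  set L : ℝ := Real.log (1 + u) with hL
  have h1 : |L - (u - u ^ 2 / 2)| ≤ 2 * |u| ^ 3 := log_aux le_rfl (by linarith)
  have hsq : u ^ 2 = |u| ^ 2 := (sq_abs u).symm
  have h3 : |u| ^ 3 ≤ |u| ^ 2 * (1 / 8) := by
    have : |u| ^ 3 = |u| ^ 2 * |u| := by ring
    rw [this]
    exact mul_le_mul_of_nonneg_left hu (by positivity)
  have h2 : |u| ^ 2 ≤ |u| * (1 / 8) := by
    rw [sq]
    exact mul_le_mul_of_nonneg_left hu hu0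
  have h4 : |L - u| ≤ |u| ^ 2 := by
    have e : L - u = (L - (u - u ^ 2 / 2)) + -(u ^ 2 / 2) := by ring
    have e2 : |-(u ^ 2 / 2)| = |u| ^ 2 / 2 := by
      rw [abs_neg, abs_div, abs_two, abs_of_nonneg (sq_nonneg u), hsq]
    have e3 := abs_add_le (L - (u - u ^ 2 / 2)) (-(u ^ 2 / 2))
    rw [← e, e2] at e3
    have := sq_nonneg |u|
    linarith
  have h5 : |L| ≤ 2 * |u| := by
    have e : L = (L - u) + u := by ring
    rw [e]
    refine (abs_add_le _ _).trans ?_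
    linarith
  have hx : |a * L| ≤ 6 * |u| := by
    rw [abs_mul, abs_of_nonneg ha]
    calc a * |L| ≤ 3 * (2 * |u|) := mul_le_mul ha3 h5 (abs_nonneg _) (by norm_num)
      _ = 6 * |u| := by ring
  have h6 := exp_aux hx (by linarith)
  have h7 : |L ^ 2 - u ^ 2| ≤ 3 * |u| ^ 3 := by
    have e : L ^ 2 - u ^ 2 = (L - u) * (L + u) := by ring
    rw [e, abs_mul]
    have h8 : |L + u| ≤ 3 * |u| := (abs_add_le _ _).trans (by linarith)
    calc |L - u| * |L + u| ≤ |u| ^ 2 * (3 * |u|) :=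
          mul_le_mul h4 h8 (abs_nonneg _) (by positivity)
      _ = 3 * |u| ^ 3 := by ring
  have e1 : (1 + u) ^ a = Real.exp (a * L) := by
    rw [Real.rpow_def_of_pos hpos, mul_comm]
  have e2 : (1 + u) ^ a - (1 + a * u + a * (a - 1) / 2 * u ^ 2) =
      (Real.exp (a * L) - (1 + a * L + (a * L) ^ 2 / 2)) + a * (L - (u - u ^ 2 / 2)) +
        a ^ 2 / 2 * (L ^ 2 - u ^ 2) := by
    rw [e1]; ring
  rw [e2]
  refine (abs_add_three _ _ _).trans ?_
  have c1 : |a * (L - (u - u ^ 2 / 2))| ≤ 3 * (2 * |u| ^ 3) := by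
    rw [abs_mul, abs_of_nonneg ha]
    exact mul_le_mul ha3 h1 (abs_nonneg _) (by norm_num)
  have c2 : |a ^ 2 / 2 * (L ^ 2 - u ^ 2)| ≤ 9 / 2 * (3 * |u| ^ 3) := by
    rw [abs_mul, abs_of_nonneg (by positivity)]
    refine mul_le_mul ?_ h7 (abs_nonneg _) (by norm_num)
    nlinarith
  have e3 : (6 * |u|) ^ 3 = 216 * |u| ^ 3 := by ring
  rw [e3] at h6
  have : 0 ≤ |u| ^ 3 := by positivity
  linarith

theorem obs_alg {h C A B w t q u : ℝ} (h0 : 0 < h) (h1 : h ≤ 1) (hA : 0 ≤ A)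
    (H2 : |u - (w * q / 3 + 2 / 9 * (w ^ 2 - 6 * t) * q ^ 2)| ≤ C * |q| ^ 3)
    (huA : |u| ≤ A * |q|) (hu2 : |u ^ 2 - (w * q / 3) ^ 2| ≤ B * |q| ^ 3) (hu8 : |u| ≤ 1 / 8) :
    |(1 + u) ^ (3 * h) - 1 - (h * w * q + (h * (h + 1) / 2 * w ^ 2 - 4 * h * t) * q ^ 2)| ≤
      (300 * A ^ 3 + 3 * C + 3 * B) * |q| ^ 3 := by
  have key := rpow_expand (a := 3 * h) (by positivity) (by linarith) hu8
  have e2 : (1 + u) ^ (3 * h) - 1 - (h * w * q + (h * (h + 1) / 2 * w ^ 2 - 4 * h * t) * q ^ 2) =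
      ((1 + u) ^ (3 * h) - (1 + 3 * h * u + 3 * h * (3 * h - 1) / 2 * u ^ 2)) +
      3 * h * (u - (w * q / 3 + 2 / 9 * (w ^ 2 - 6 * t) * q ^ 2)) +
      3 * h * (3 * h - 1) / 2 * (u ^ 2 - (w * q / 3) ^ 2) := by
    ring
  have c1 : 300 * |u| ^ 3 ≤ 300 * (A * |q|) ^ 3 :=
    mul_le_mul_of_nonneg_left (pow_le_pow_left₀ (abs_nonneg _) huA 3) (by norm_num)
  have c2 : |3 * h * (u - (w * q / 3 + 2 / 9 * (w ^ 2 - 6 * t) * q ^ 2))| ≤ 3 * (C * |q| ^ 3) := by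
    rw [abs_mul, abs_of_pos (by positivity)]
    exact mul_le_mul (by linarith) H2 (abs_nonneg _) (by norm_num)
  have c3 : |3 * h * (3 * h - 1) / 2 * (u ^ 2 - (w * q / 3) ^ 2)| ≤ 3 * (B * |q| ^ 3) := by
    rw [abs_mul]
    refine mul_le_mul ?_ hu2 (abs_nonneg _) (by norm_num)
    have k1 : h * h ≤ h := by
      calc h * h ≤ h * 1 := mul_le_mul_of_nonneg_left h1 h0.le
        _ = h := mul_one h
    have k2 : 0 ≤ h * h := by positivity
    have e : 3 * h * (3 * h - 1) / 2 = (9 * (h * h) - 3 * h) / 2 := by ring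
    rw [e, abs_le]
    constructor <;> linarith
  have e4 : (300 * A ^ 3 + 3 * C + 3 * B) * |q| ^ 3 =
      300 * (A * |q|) ^ 3 + 3 * (C * |q| ^ 3) + 3 * (B * |q| ^ 3) := by ring
  rw [e2, e4]
  refine (abs_add_three _ _ _).trans ?_
  linarith

/-- **Expansion of the boundary observable.** -/
theorem obsH_expansion {h T R : ℝ} (h0 : 0 < h) (h1 : h ≤ 1) (hT : 0 ≤ T) (hR : 0 ≤ R) :
    ∃ C b₀ : ℝ, 0 ≤ C ∧ 0 < b₀ ∧
    ∀ (W : ℝ → ℝ) (b t : ℝ), 0 ≤ t → t ≤ T → ContinuousOn W (Icc 0 t) →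
      (∀ s ∈ Icc 0 t, |W s| ≤ R) → b₀ ≤ |b| →
      |obsH h W b t - 1 - (h * W t / b + h * (h + 1) / 2 * (W t ^ 2 - 8 / (h + 1) * t) / b ^ 2)| ≤
        C / |b| ^ 3 := by
  obtain ⟨C, b₀, hC, hb₀, H⟩ := obsF_expansion hT hR
  obtain ⟨A, hA⟩ : ∃ A, A = R + (R ^ 2 + 6 * T) + C := ⟨_, rfl⟩
  have hA0 : 0 ≤ A := by rw [hA]; positivity
  refine ⟨300 * A ^ 3 + 3 * C + 3 * ((R ^ 2 + 6 * T + C) * (2 * A)), b₀ + 1 + 8 * A, by positivity,
    by positivity, fun W b t ht htT hW hWR hb => ?_⟩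
  obtain ⟨-, H1⟩ := H W b t ht htT hW hWR (by linarith)
  have hb1 : 1 ≤ |b| := by linarith
  have hb0 : 0 < |b| := by linarith
  have hbne : b ≠ 0 := abs_pos.1 hb0
  obtain ⟨u, hu⟩ : ∃ u, u = obsF W b t - 1 := ⟨_, rfl⟩
  obtain ⟨q, hq⟩ : ∃ q, q = b⁻¹ := ⟨_, rfl⟩
  have hqa : |q| = |b|⁻¹ := by rw [hq, abs_inv]
  have hq0 : 0 ≤ |q| := abs_nonneg q
  have hq1 : |q| ≤ 1 := by rw [hqa]; exact inv_le_one_of_one_le₀ hb1
  have hq2 : q ^ 2 = |q| ^ 2 := (sq_abs q).symm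
  have hq21 : |q| ^ 2 ≤ |q| := by
    calc |q| ^ 2 = |q| * |q| := sq _
      _ ≤ |q| * 1 := mul_le_mul_of_nonneg_left hq1 hq0
      _ = |q| := mul_one _
  have hq32 : |q| ^ 3 ≤ |q| ^ 2 := by
    calc |q| ^ 3 = |q| ^ 2 * |q| := pow_succ _ _
      _ ≤ |q| ^ 2 * 1 := mul_le_mul_of_nonneg_left hq1 (by positivity)
      _ = |q| ^ 2 := mul_one _
  have hwR := hWR t ⟨ht, le_rfl⟩
  obtain ⟨w, hw⟩ : ∃ w, w = W t := ⟨_, rfl⟩
  rw [← hw] at hwR H1 ⊢
  have hw2 : w ^ 2 ≤ R ^ 2 := by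
    rw [← sq_abs w]; exact pow_le_pow_left₀ (abs_nonneg _) hwR 2
  have H2 : |u - (w * q / 3 + 2 / 9 * (w ^ 2 - 6 * t) * q ^ 2)| ≤ C * |q| ^ 3 := by
    have e : u - (w * q / 3 + 2 / 9 * (w ^ 2 - 6 * t) * q ^ 2) = obsF W b t - 1 - mainB b w t := by
      rw [hu, hq, mainB]
      field_simp
    rw [e, hqa, inv_pow, ← div_eq_mul_inv]
    exact H1
  have hm : |2 / 9 * (w ^ 2 - 6 * t) * q ^ 2| ≤ (R ^ 2 + 6 * T) * |q| ^ 2 := by
    rw [abs_mul, abs_of_nonneg (sq_nonneg q), hq2]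
    refine mul_le_mul_of_nonneg_right ?_ (by positivity)
    have := sq_nonneg w
    have := sq_nonneg R
    rw [abs_le]; constructor <;> linarith
  have hu1 : |u - w * q / 3| ≤ (R ^ 2 + 6 * T + C) * |q| ^ 2 := by
    have e : u - w * q / 3 = (u - (w * q / 3 + 2 / 9 * (w ^ 2 - 6 * t) * q ^ 2)) +
      2 / 9 * (w ^ 2 - 6 * t) * q ^ 2 := by ring
    rw [e]
    refine (abs_add_le _ _).trans ?_
    have : C * |q| ^ 3 ≤ C * |q| ^ 2 := mul_le_mul_of_nonneg_left hq32 hC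
    linarith
  have hwq : |w * q / 3| ≤ R * |q| := by
    rw [abs_div, abs_mul]
    have h3 : |(3 : ℝ)| = 3 := by norm_num
    have h5 : |w| * |q| ≤ R * |q| := mul_le_mul_of_nonneg_right hwR hq0
    have h6 : 0 ≤ R * |q| := by positivity
    rw [h3]; linarith
  have huA : |u| ≤ A * |q| := by
    have e : u = (u - w * q / 3) + w * q / 3 := by ring
    have e1 := abs_add_le (u - w * q / 3) (w * q / 3)
    rw [← e] at e1
    have : (R ^ 2 + 6 * T + C) * |q| ^ 2 ≤ (R ^ 2 + 6 * T + C) * |q| :=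
      mul_le_mul_of_nonneg_left hq21 (by positivity)
    rw [hA]; linarith
  have hu8 : |u| ≤ 1 / 8 := by
    refine huA.trans ?_
    rw [hqa, ← div_eq_mul_inv, div_le_iff₀ hb0]
    linarith
  have hwA : |w * q / 3| ≤ A * |q| := by
    refine hwq.trans (mul_le_mul_of_nonneg_right ?_ hq0)
    rw [hA]
    have := sq_nonneg R
    linarith
  have hu2 : |u ^ 2 - (w * q / 3) ^ 2| ≤ (R ^ 2 + 6 * T + C) * (2 * A) * |q| ^ 3 := by
    have := sq_sub_aux (r := 0) (s := 0) hu1 huA hwA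
    refine this.trans (le_of_eq ?_)
    ring
  have key := obs_alg h0 h1 hA0 H2 huA hu2 hu8
  have e1 : obsH h W b t = (1 + u) ^ (3 * h) := by
    rw [obsH, hu]; congr 1; ring
  have hh : h + 1 ≠ 0 := by positivity
  have e2 : obsH h W b t - 1 - (h * w / b + h * (h + 1) / 2 * (w ^ 2 - 8 / (h + 1) * t) / b ^ 2) =
      (1 + u) ^ (3 * h) - 1 - (h * w * q + (h * (h + 1) / 2 * w ^ 2 - 4 * h * t) * q ^ 2) := by
    have e3 : h * (h + 1) / 2 * (w ^ 2 - 8 / (h + 1) * t) = h * (h + 1) / 2 * w ^ 2 - 4 * h * t := by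
      field_simp
      ring
    rw [e1, e3, hq, div_eq_mul_inv, div_eq_mul_inv, inv_pow]
  have e4 : (300 * A ^ 3 + 3 * C + 3 * ((R ^ 2 + 6 * T + C) * (2 * A))) / |b| ^ 3 =
      (300 * A ^ 3 + 3 * C + 3 * ((R ^ 2 + 6 * T + C) * (2 * A))) * |q| ^ 3 := by
    rw [hqa, inv_pow, div_eq_mul_inv]
  rw [e2, e4]
  exact key

/-- `obsH h` is the boundary observable of SLE with `κ = 8 / (h + 1)`. -/
theorem expn_obsH {h : ℝ} (h0 : 0 < h) (h1 : h ≤ 1) :
    Expn (obsH h) (8 / (h + 1)) 1 h (h * (h + 1) / 2) where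
  h1 := h0.ne'
  h2 := by positivity
  exp := by
    intro T R hT hR
    obtain ⟨C, b₀, hC, hb₀, H⟩ := obsH_expansion h0 h1 hT hR
    refine ⟨C, b₀, hC, hb₀, fun W b t ht htT hW hWR hb => ?_⟩
    have hb0 : 0 < b := lt_of_lt_of_le hb₀ hb
    have h2 := H W b t ht htT hW hWR (by rwa [abs_of_pos hb0])
    rw [abs_of_pos hb0] at h2
    have e' : obsH h W b t - (1 + h * W t / b + h * (h + 1) / 2 *
        (W t ^ 2 - 8 / (h + 1) * t) / b ^ 2) = obsH h W b t - 1 - (h * W t / b +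
          h * (h + 1) / 2 * (W t ^ 2 - 8 / (h + 1) * t) / b ^ 2) := by ring
    rw [e']
    exact h2

/-- The exponent `h = 1 - 2 μ / π = 8 / κ - 1`. -/
noncomputable def hH (q : ℝ) : ℝ := 1 - 2 * muq q / Real.pi

theorem hH_pos {q : ℝ} (h0 : 0 < q) : 0 < hH q := by
  have h1 := muq_lt h0
  have hp := Real.pi_pos
  unfold hH
  rw [sub_pos, div_lt_one hp]
  linarith

theorem hH_le {q : ℝ} (h4 : q < 4) : hH q ≤ 1 := by
  have h1 := muq_pos h4
  have hp := Real.pi_pos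
  unfold hH
  have : 0 ≤ 2 * muq q / Real.pi := by positivity
  linarith

theorem kappa_hH {q : ℝ} (h0 : 0 < q) : 8 / (hH q + 1) = Final.kappa q := by
  have h1 := muq_lt h0
  have hp := Real.pi_pos
  have h2 : Real.pi - muq q ≠ 0 := by linarith
  rw [kappa_eq, hH]
  have e : 1 - 2 * muq q / Real.pi + 1 = 2 * (Real.pi - muq q) / Real.pi := by
    field_simp
    ring
  rw [e]
  field_simp
  norm_num

theorem expn_hH {q : ℝ} (h0 : 0 < q) (h4 : q < 4) :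
    Expn (obsH (hH q)) (Final.kappa q) 1 (hH q) (hH q * (hH q + 1) / 2) := by
  have h := expn_obsH (hH_pos h0) (hH_le h4)
  rwa [kappa_hH h0] at h

/-- **The question for `0 < q < 4`** from the observable `(b g_t'(b) / (g_t(b) - W_t))^h`,
`h = 8 / κ - 1`; closeness in `L¹`. -/
theorem question_obsHL {q : ℝ} (h0 : 0 < q) (h4 : q < 4)
    (hclose : I_closeL (wq q) (obsH (hH q))) (hcross : I_crossW (wq q))
    (hfin : I_finW (wq q)) (hnf : I_nfW (wq q)) : Final.Question q :=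
  question_of_curve h0
    (curveLimitL_of (kappa_pos' h0.le) (wq_pos h0) (expn_hH h0 h4) hclose hcross hfin hnf)

/-- **The question for `0 < q < 4`** from the observable `(b g_t'(b) / (g_t(b) - W_t))^h`,
`h = 8 / κ - 1`; closeness in probability. -/
theorem question_obsHP {q : ℝ} (h0 : 0 < q) (h4 : q < 4)
    (hclose : I_closeP (wq q) (obsH (hH q))) (hcross : I_crossW (wq q))
    (hfin : I_finW (wq q)) (hnf : I_nfW (wq q)) : Final.Question q :=
  question_of_curve h0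
    (curveLimitP_of (kappa_pos' h0.le) (wq_pos h0) (expn_hH h0 h4) hclose hcross hfin hnf)

end Vale.Agent.P167.H375
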