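import Vale.Agent.P167.QT.CloseM
import Vale.Agent.P167.H375.Obs

/-!
# P167, `0 < q < 4`, block TOP for the one-arm observable

The conditional probability that a boundary point is connected to the wired arc, given the exploration,
is compared with the probabilities in two shapes (`GeoH`); the ratios of the probabilities in two shapes
converge (`RatH`). Both give the closeness of the observable `obsH h` (`closeM_of`) and the question for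
the class `K` (`curveLimitOn_H`, `questionOn_H`). The shapes are abstract: `pt N P` is the probability in
the shape `P` at the size `N`, `cq P c` says that the conformal quantity
`(φ⁻¹)'(t) / (φ⁻¹(t) - φ⁻¹(a))` of `P` is `c`.
-/

set_option autoImplicit false
set_option linter.unusedVariables false

namespace Vale.Agent.P167.H375

open MeasureTheory ProbabilityTheory Filter Topology Set
open Vale.Agent.P153.M1 (Expl)
open Vale.Agent.P167.H411 (Expn Set6 exn DC DCs Qc xc_Qc good_ev DCs_bdd fjr_mono I_rado6 AsymB)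
open Vale.Agent.P167.QE
open Vale.Agent.P167.QT (CloseM closeL_of_closeM I_closeMOn)
open Vale.Agent.P167.E6 (Medial)
open scoped NNReal ENNReal

variable {σ : Type}

/-- The comparison for one lattice domain at the size `N`, with the constants `M`, `ε`, `ε'`: `f` is the
indicator of the connection event. (i) A bound for all histories; (ii) except on histories of small
weight the conditional probabilities are between those of two shapes, whose conformal quantities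
(relative to the shape `P₀`) are close to the observable. -/
def GeoHAt (h : ℝ) (pt : ℕ → σ → ℝ) (cq : σ → ℝ → Prop)
    (X : Expl (Finset (Sym2 (ℤ × ℤ))) Medial) (w : Finset (Sym2 (ℤ × ℤ)) → ℝ)
    (T R b M ε ε' : ℝ) (Sh : Set σ) (P₀ : σ) (N : ℕ) : Prop :=
  ∃ f : Finset (Sym2 (ℤ × ℤ)) → ℝ, (∀ A, 0 ≤ f A) ∧
    ∀ κ : Finset (Sym2 (ℤ × ℤ)) → ℕ, BefIx X T R κ →
      (∀ A ∈ X.C, cexW X w f A (κ A) ≤ M * pt N P₀) ∧
      ExW X.C w ({A | ¬ ∃ P ∈ Sh, ∃ P' ∈ Sh,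
        ((1 - ε') * pt N P ≤ cexW X w f A (κ A) ∧
          cexW X w f A (κ A) ≤ (1 + ε') * pt N P') ∧
        ∀ Q : σ, (Q = P ∨ Q = P') → ∀ c c₀ : ℝ, cq Q c → cq P₀ c₀ →
          |(c / c₀) ^ h - obsH h (X.W A) b (X.c A (κ A))| ≤ ε}.indicator 1) ≤ ε'

/-- **[GEOH]** The geometric input for the class `K`. The bound `M` does not depend on `ε'`. -/
def GeoH (q h : ℝ) (F : Filter ℕ) (pt : ℕ → σ → ℝ) (cq : σ → ℝ → Prop) (K : Cls) : Prop :=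
  ∀ (Φ : (ℝ × ℝ) ≃ₜ (ℝ × ℝ)) (ψ : ℂ → ℂ)
  (δ : ℕ → ℝ) (N k : ℕ → ℕ) (p : ∀ n, ZMod (N n) → ℤ × ℤ) (S : ℕ → Finset (ℤ × ℤ))
  (ψn : ℕ → ℂ → ℂ), Set6 Φ ψ δ N k p S ψn → K Φ δ N k p S → ∀ T R : ℝ, 0 ≤ T → 0 < R →
    ∃ b₁ : ℝ, ∀ b : ℝ, b₁ ≤ b → ∀ ε : ℝ, 0 < ε → ∃ M : ℝ, 0 < M ∧ ∀ ε' : ℝ, 0 < ε' →
      ∃ (Sh : Set σ) (P₀ : ℕ → σ) (N' : ℕ → ℕ), Sh.Finite ∧ (∀ n, P₀ n ∈ Sh) ∧
        (∀ P ∈ Sh, ∃ c, 0 < c ∧ cq P c) ∧ Tendsto N' atTop F ∧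
        ∀ᶠ n in atTop, GeoHAt h pt cq (exn δ N k p S ψn n) (wq q (N n) (p n) (k n) (S n))
          T R b M ε ε' Sh (P₀ n) (N' n)

/-- **[RATH]** The ratios of the probabilities in the shapes. -/
def RatH (h : ℝ) (F : Filter ℕ) (pt : ℕ → σ → ℝ) (cq : σ → ℝ → Prop) : Prop :=
  ∀ (P P₀ : σ) (c c₀ : ℝ), 0 < c → 0 < c₀ → cq P c → cq P₀ c₀ →
    (∀ᶠ N in F, 0 < pt N P₀) ∧ Tendsto (fun N => pt N P / pt N P₀) F (𝓝 ((c / c₀) ^ h))

theorem cexW_div {X : Expl (Finset (Sym2 (ℤ × ℤ))) Medial} (hX : X.C.Finite)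
    (w f : Finset (Sym2 (ℤ × ℤ)) → ℝ) (s : ℝ) (A : Finset (Sym2 (ℤ × ℤ))) (k : ℕ) :
    cexW X w (fun a => f a / s) A k = cexW X w f A k / s := by
  have h := exW_smul (cyl_fin hX A k) w f s⁻¹
  rw [cexW, cexW, div_eq_inv_mul, ← h]
  congr 1
  funext a
  rw [div_eq_inv_mul]

/-- The arithmetic of the sandwich. -/
theorem arith_sand {M ε ε' t O X r r' L L' : ℝ} (hM : 0 < M) (hε : 0 < ε) (hε1 : ε ≤ 1)
    (hε' : 0 < ε') (h2 : ε' ≤ 1 / 2) (hε'2 : ε' * (2 * M + 4) ≤ ε) (ht : 0 < t) (htε : t ≤ ε)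
    (hr : 0 ≤ r) (h1 : |r - L| ≤ t) (h1' : |r' - L'| ≤ t) (hL : |L - O| ≤ ε)
    (hL' : |L' - O| ≤ ε) (hlo : (1 - ε') * r ≤ X) (hup : X ≤ (1 + ε') * r') (hXM : X ≤ M) :
    |X - O| ≤ 3 * ε := by
  obtain ⟨a1, a2⟩ := abs_le.1 h1
  obtain ⟨b1, b2⟩ := abs_le.1 h1'
  obtain ⟨c1, c2⟩ := abs_le.1 hL
  obtain ⟨d1, d2⟩ := abs_le.1 hL'
  have hr2 : r ≤ 2 * M := by
    have : (1 / 2 : ℝ) * r ≤ (1 - ε') * r := mul_le_mul_of_nonneg_right (by linarith) hr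
    linarith
  have hO : O ≤ 2 * M + 2 := by linarith
  have hεr : ε' * r ≤ ε := by
    calc ε' * r ≤ ε' * (2 * M + 4) := mul_le_mul_of_nonneg_left (by linarith) hε'.le
      _ ≤ ε := hε'2
  have hεr' : ε' * r' ≤ ε := by
    calc ε' * r' ≤ ε' * (2 * M + 4) := mul_le_mul_of_nonneg_left (by linarith) hε'.le
      _ ≤ ε := hε'2
  have e1 : (1 - ε') * r = r - ε' * r := by ring
  have e2 : (1 + ε') * r' = r' + ε' * r' := by ring
  rw [abs_le]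
  constructor <;> linarith

/-- The statement at one size. -/
theorem one_n {h : ℝ} {pt : ℕ → σ → ℝ} {cq : σ → ℝ → Prop} {Sh : Set σ} {P₀ : σ} (hP₀ : P₀ ∈ Sh)
    (hpt : ∀ N P, 0 ≤ pt N P) (hok : ∀ P ∈ Sh, ∃ c, 0 < c ∧ cq P c) {N' : ℕ}
    {X : Expl (Finset (Sym2 (ℤ × ℤ))) Medial} {w : Finset (Sym2 (ℤ × ℤ)) → ℝ}
    {T R b M ε ε' t : ℝ} (hX : X.C.Finite) (hw : ∀ a ∈ X.C, 0 < w a) (hM : 0 < M) (hε : 0 < ε)
    (hε1 : ε ≤ 1) (hε' : 0 < ε') (h2 : ε' ≤ 1 / 2) (hε'2 : ε' * (2 * M + 4) ≤ ε) (ht : 0 < t)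
    (htε : t ≤ ε) (hpos : 0 < pt N' P₀)
    (hrat : ∀ P ∈ Sh, ∃ c c₀, cq P c ∧ cq P₀ c₀ ∧ |pt N' P / pt N' P₀ - (c / c₀) ^ h| ≤ t)
    (hG : GeoHAt h pt cq X w T R b M ε ε' Sh P₀ N') :
    ∃ φ : Finset (Sym2 (ℤ × ℤ)) → ℝ, ∀ κ : Finset (Sym2 (ℤ × ℤ)) → ℕ, BefIx X T R κ →
      (∀ A ∈ X.C, |cexW X w φ A (κ A)| ≤ M) ∧
      ExW X.C w ({A | 3 * ε < |cexW X w φ A (κ A) -
        obsH h (X.W A) b (X.c A (κ A))|}.indicator 1) ≤ ε' := by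
  obtain ⟨f, hf, hG⟩ := hG
  refine ⟨fun A => f A / pt N' P₀, fun κ hκ => ?_⟩
  obtain ⟨g1, g2⟩ := hG κ hκ
  have hX0 : ∀ A, 0 ≤ cexW X w f A (κ A) := fun A =>
    cexW_nonneg hw (fun a _ => hf a) A (κ A)
  have hM1 : ∀ A ∈ X.C, cexW X w f A (κ A) / pt N' P₀ ≤ M := fun A hA => by
    rw [div_le_iff₀ hpos]
    exact g1 A hA
  refine ⟨fun A hA => ?_, ?_⟩
  · rw [cexW_div hX, abs_of_nonneg (div_nonneg (hX0 A) hpos.le)]
    exact hM1 A hA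
  · refine le_trans (exW_mono hX hw fun A hA => ?_) g2
    by_cases hb : A ∈ {A | ¬ ∃ P ∈ Sh, ∃ P' ∈ Sh,
        ((1 - ε') * pt N' P ≤ cexW X w f A (κ A) ∧
          cexW X w f A (κ A) ≤ (1 + ε') * pt N' P') ∧
        ∀ Q : σ, (Q = P ∨ Q = P') → ∀ c c₀ : ℝ, cq Q c → cq P₀ c₀ →
          |(c / c₀) ^ h - obsH h (X.W A) b (X.c A (κ A))| ≤ ε}
    · rw [Set.indicator_of_mem hb]
      exact Set.indicator_le_self' (fun _ _ => zero_le_one) A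
    · rw [Set.indicator_of_notMem hb, Set.indicator_of_notMem]
      simp only [Set.mem_ofPred_eq, not_not] at hb
      obtain ⟨P, hP, P', hP', ⟨s1, s2⟩, hcl⟩ := hb
      simp only [Set.mem_ofPred_eq, not_lt]
      obtain ⟨c, c₀, k1, k2, k3⟩ := hrat P hP
      obtain ⟨c', c₀', k1', k2', k3'⟩ := hrat P' hP'
      have o1 := hcl P (Or.inl rfl) c c₀ k1 k2
      have o2 := hcl P' (Or.inr rfl) c' c₀' k1' k2'
      rw [cexW_div hX]
      refine arith_sand hM hε hε1 hε' h2 hε'2 ht htε (div_nonneg (hpt _ _) hpos.le) k3 k3' o1 o2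
        ?_ ?_ (hM1 A hA)
      · rw [le_div_iff₀ hpos, mul_assoc, div_mul_cancel₀ _ hpos.ne']
        exact s1
      · rw [div_le_iff₀ hpos, mul_assoc, div_mul_cancel₀ _ hpos.ne']
        exact s2

/-- **[TOP]** The geometric input and the ratios give the closeness of the observable. -/
theorem closeM_of {q h : ℝ} (hq : 0 < q) {F : Filter ℕ} {pt : ℕ → σ → ℝ} {cq : σ → ℝ → Prop}
    {K : Cls} (hpt : ∀ N P, 0 ≤ pt N P) (hG : GeoH q h F pt cq K) (hR : RatH h F pt cq) :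
    I_closeMOn K (wq q) (obsH h) := by
  classical
  intro Φ ψ δ N k p S ψn hS hK T R hT hR'
  obtain ⟨b₁, hb₁⟩ := hG Φ ψ δ N k p S ψn hS hK T R hT hR'
  refine ⟨b₁, fun b hb ε hε => ?_⟩
  set ε₁ : ℝ := min (ε / 3) 1 with hε₁
  have hε₁0 : 0 < ε₁ := lt_min (by positivity) one_pos
  have hε₁1 : ε₁ ≤ 1 := min_le_right _ _
  have hε₁2 : 3 * ε₁ ≤ ε := by
    have := min_le_left (ε / 3) 1
    linarith
  obtain ⟨M, hM, hM'⟩ := hb₁ b hb ε₁ hε₁0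
  refine ⟨M, fun ε' hε' => ?_⟩
  set t : ℝ := min (min (1 / 2) ε') (ε₁ / (2 * M + 4)) with ht
  have hden : (0 : ℝ) < 2 * M + 4 := by positivity
  have ht0 : 0 < t := lt_min (lt_min (by norm_num) hε') (div_pos hε₁0 hden)
  have ht1 : t ≤ 1 / 2 := (min_le_left _ _).trans (min_le_left _ _)
  have ht2 : t ≤ ε' := (min_le_left _ _).trans (min_le_right _ _)
  have ht3 : t * (2 * M + 4) ≤ ε₁ := (le_div_iff₀ hden).1 (min_le_right _ _)
  obtain ⟨Sh, P₀, N', hf, hP₀, hok, hN', hGeo⟩ := hM' t ht0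
  have hff : (Sh ×ˢ Sh).Finite := hf.prod hf
  have hrat : ∀ᶠ n in F, ∀ PP ∈ Sh ×ˢ Sh, 0 < pt n PP.2 ∧
      ∃ c c₀, cq PP.1 c ∧ cq PP.2 c₀ ∧ |pt n PP.1 / pt n PP.2 - (c / c₀) ^ h| ≤ ε₁ := by
    rw [Filter.eventually_all_finite hff]
    rintro ⟨P, Q⟩ ⟨hP, hQ⟩
    obtain ⟨c, hc, k1⟩ := hok P hP
    obtain ⟨c₀, hc₀, k2⟩ := hok Q hQ
    obtain ⟨r1, r2⟩ := hR P Q c c₀ hc hc₀ k1 k2
    filter_upwards [r1, r2.eventually (Metric.closedBall_mem_nhds _ hε₁0)] with n h1 h2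
    exact ⟨h1, c, c₀, k1, k2, h2⟩
  have key : ∀ᶠ n in atTop, ∃ φ : Finset (Sym2 (ℤ × ℤ)) → ℝ,
      ∀ κ : Finset (Sym2 (ℤ × ℤ)) → ℕ, BefIx (exn δ N k p S ψn n) T R κ →
      (∀ A ∈ (exn δ N k p S ψn n).C,
        |cexW (exn δ N k p S ψn n) (wq q (N n) (p n) (k n) (S n)) φ A (κ A)| ≤ M) ∧
      ExW (exn δ N k p S ψn n).C (wq q (N n) (p n) (k n) (S n))
        ({A | 3 * ε₁ < |cexW (exn δ N k p S ψn n) (wq q (N n) (p n) (k n) (S n)) φ A (κ A) -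
          obsH h ((exn δ N k p S ψn n).W A) b
            ((exn δ N k p S ψn n).c A (κ A))|}.indicator 1) ≤ t := by
    filter_upwards [hGeo, hN'.eventually hrat] with n g1 g2
    exact one_n (hP₀ n) hpt hok (Finset.finite_toSet _) (fun A _ => wq_pos hq _ _ _ _ A) hM hε₁0
      hε₁1 ht0 ht1 ht3 hε₁0 le_rfl (g2 (P₀ n, P₀ n) ⟨hP₀ n, hP₀ n⟩).1
      (fun P hP => (g2 (P, P₀ n) ⟨hP, hP₀ n⟩).2) g1
  let φ : ℕ → Finset (Sym2 (ℤ × ℤ)) → ℝ := fun n => if h' : ∃ φ : Finset (Sym2 (ℤ × ℤ)) → ℝ,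
      ∀ κ : Finset (Sym2 (ℤ × ℤ)) → ℕ, BefIx (exn δ N k p S ψn n) T R κ →
      (∀ A ∈ (exn δ N k p S ψn n).C,
        |cexW (exn δ N k p S ψn n) (wq q (N n) (p n) (k n) (S n)) φ A (κ A)| ≤ M) ∧
      ExW (exn δ N k p S ψn n).C (wq q (N n) (p n) (k n) (S n))
        ({A | 3 * ε₁ < |cexW (exn δ N k p S ψn n) (wq q (N n) (p n) (k n) (S n)) φ A (κ A) -
          obsH h ((exn δ N k p S ψn n).W A) b
            ((exn δ N k p S ψn n).c A (κ A))|}.indicator 1) ≤ t then h'.choose else 0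
  refine ⟨φ, ?_⟩
  filter_upwards [key] with n hn κ hκ
  have e : φ n = hn.choose := by simp only [φ, dif_pos hn]
  rw [e]
  obtain ⟨a1, a2⟩ := hn.choose_spec κ hκ
  refine ⟨a1, le_trans (exW_mono (Finset.finite_toSet _) (fun A _ => wq_pos hq _ _ _ _ A)
    fun A hA => ?_) (a2.trans ht2)⟩
  refine Set.indicator_le_indicator_of_subset (fun A' hA' => ?_) (fun _ => zero_le_one) A
  simp only [Set.mem_ofPred_eq] at hA' ⊢
  exact hε₁2.trans_lt hA'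

end Vale.Agent.P167.H375
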